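import Vale.Agent.P193.Bh.Interface

/-!
# P193: the swindle algebra

Five generators act on strings of bits with zero tail: the pushes and pops of a bit and the point
projection `pt`. Five more are their images under the map `D`, applying an operator after the
first block of the code `C = 0 | 10 C C | 11 X`, where `X = 0 | 1 X`. The relations make `D` an
endomorphism, and `t₁ t₁ D s₁ s₁`, applying an operator after a block of `X`, is the swindle.
-/

namespace Vale.Agent.P193.Bh.Alg.B

/-- The free algebra on the ten generators. -/
abbrev Fr : Type := FreeAlgebra (ZMod 2) (Fin 10)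

/-- A generator. -/
def gen (i : Fin 5) : Fr := FreeAlgebra.ι (ZMod 2) (Fin.castAdd 5 i)

/-- The image of a generator. -/
def dgen (i : Fin 5) : Fr := FreeAlgebra.ι (ZMod 2) (Fin.natAdd 5 i)

/-- Pushing a bit. -/
def pushF : Bool → Fr
  | false => gen 0
  | true => gen 1

/-- Popping a bit. -/
def popF : Bool → Fr
  | false => gen 2
  | true => gen 3

/-- The point projection. -/
def ptF : Fr := gen 4

/-- The endomorphism on the free algebra. -/
noncomputable def dF : Fr →ₐ[ZMod 2] Fr :=
  FreeAlgebra.lift (ZMod 2) (Fin.addCases (motive := fun _ => Fr) dgen
    fun i => popF false * popF true * dgen i * (pushF true * pushF false))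

/-- After a block of `X`. -/
noncomputable def xF (b : Fr) : Fr := popF true * popF true * dF b * (pushF true * pushF true)

/-- After one bit of a block of `C`. -/
noncomputable def zF (b : Fr) : Fr :=
  pushF false * dF (dF b) * popF false + pushF true * xF b * popF true

/-- The relations of pushes, pops and the point. -/
noncomputable def relLeavitt : List Fr :=
  [popF false * pushF false - 1, popF true * pushF true - 1, popF false * pushF true,
    popF true * pushF false, pushF false * popF false + pushF true * popF true - 1,
    ptF * ptF - ptF, ptF * pushF false - ptF, ptF * pushF true, popF false * ptF - ptF,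
    popF true * ptF, pushF false * ptF - ptF, ptF * popF false - ptF]

/-- The defining equations of the two codes and the double block. -/
noncomputable def relCode (i : Fin 10) : List Fr :=
  let g := FreeAlgebra.ι (ZMod 2) i
  [dF g - (pushF false * g * popF false + pushF true * zF g * popF true),
    xF g - (pushF false * g * popF false + pushF true * xF g * popF true),
    dF (dF g) - popF false * popF true * dF g * (pushF true * pushF false)]

open Classical in
/-- All relations. -/
noncomputable def rels : Finset Fr :=
  (relLeavitt ++ (List.finRange 10).flatMap relCode).toFinset ∪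
    ((relLeavitt ++ (List.finRange 10).flatMap relCode).toFinset).image dF

/-- The ideal of relations. -/
noncomputable def relIdeal : Ideal Fr := (TwoSidedIdeal.span (rels : Set Fr)).asIdeal

instance : relIdeal.IsTwoSided := by unfold relIdeal; infer_instance

/-- The swindle algebra. -/
abbrev Alg : Type := Fr ⧸ relIdeal

/-- The projection. -/
noncomputable def proj : Fr →ₐ[ZMod 2] Alg := Ideal.Quotient.mkₐ (ZMod 2) relIdeal

lemma proj_surjective : Function.Surjective proj := Ideal.Quotient.mkₐ_surjective _ _

lemma proj_eq_zero_iff {x : Fr} : proj x = 0 ↔ x ∈ TwoSidedIdeal.span (rels : Set Fr) := by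
  rw [proj, Ideal.Quotient.mkₐ_eq_mk, Ideal.Quotient.eq_zero_iff_mem, relIdeal,
    TwoSidedIdeal.mem_asIdeal]

theorem fp : IsFPAlgebra Alg :=
  ⟨10, proj, proj_surjective, rels,
    fun _ hr => proj_eq_zero_iff.2 (TwoSidedIdeal.subset_span hr),
    fun _ hx => proj_eq_zero_iff.1 hx⟩

/-- Pushing a bit. -/
noncomputable def push (a : Bool) : Alg := proj (pushF a)

/-- Popping a bit. -/
noncomputable def pop (a : Bool) : Alg := proj (popF a)

/-- The point. -/
noncomputable def pt : Alg := proj ptF

lemma proj_of_mem {r : Fr} (h : r ∈ relLeavitt ++ (List.finRange 10).flatMap relCode) :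
    proj r = 0 ∧ proj (dF r) = 0 := by
  classical
  exact ⟨proj_eq_zero_iff.2 (TwoSidedIdeal.subset_span
      (Finset.mem_union_left _ (List.mem_toFinset.2 h))),
    proj_eq_zero_iff.2 (TwoSidedIdeal.subset_span
      (Finset.mem_union_right _ (Finset.mem_image_of_mem _ (List.mem_toFinset.2 h))))⟩

lemma leavitt {r : Fr} (h : r ∈ relLeavitt) : proj r = 0 :=
  (proj_of_mem (List.mem_append_left _ h)).1

lemma code {i : Fin 10} {r : Fr} (h : r ∈ relCode i) : proj r = 0 :=
  (proj_of_mem (List.mem_append_right _ (List.mem_flatMap.2 ⟨i, List.mem_finRange i, h⟩))).1

@[simp] lemma pop_push (a b : Bool) : pop a * push b = if a = b then 1 else 0 := by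
  cases a <;> cases b
  · simpa [push, pop, sub_eq_zero] using leavitt (r := popF false * pushF false - 1) (by simp [relLeavitt])
  · simpa [push, pop] using leavitt (r := popF false * pushF true) (by simp [relLeavitt])
  · simpa [push, pop] using leavitt (r := popF true * pushF false) (by simp [relLeavitt])
  · simpa [push, pop, sub_eq_zero] using leavitt (r := popF true * pushF true - 1) (by simp [relLeavitt])

@[simp] lemma pop_push_assoc (a b : Bool) (c : Alg) :
    pop a * (push b * c) = if a = b then c else 0 := by
  rw [← mul_assoc, pop_push]
  split <;> simp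

lemma sum_push_pop : push false * pop false + push true * pop true = 1 := by
  simpa [push, pop, sub_eq_zero] using
    leavitt (r := pushF false * popF false + pushF true * popF true - 1) (by simp [relLeavitt])

@[simp] lemma pt_mul_pt : pt * pt = pt := by
  simpa [pt, sub_eq_zero] using leavitt (r := ptF * ptF - ptF) (by simp [relLeavitt])

@[simp] lemma pt_push (a : Bool) : pt * push a = if a then 0 else pt := by
  cases a
  · simpa [pt, push, sub_eq_zero] using leavitt (r := ptF * pushF false - ptF) (by simp [relLeavitt])
  · simpa [pt, push] using leavitt (r := ptF * pushF true) (by simp [relLeavitt])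

@[simp] lemma pop_pt (a : Bool) : pop a * pt = if a then 0 else pt := by
  cases a
  · simpa [pt, pop, sub_eq_zero] using leavitt (r := popF false * ptF - ptF) (by simp [relLeavitt])
  · simpa [pt, pop] using leavitt (r := popF true * ptF) (by simp [relLeavitt])

lemma push_pt : push false * pt = pt := by
  simpa [pt, push, sub_eq_zero] using leavitt (r := pushF false * ptF - ptF) (by simp [relLeavitt])

lemma pt_pop : pt * pop false = pt := by
  simpa [pt, pop, sub_eq_zero] using leavitt (r := ptF * popF false - ptF) (by simp [relLeavitt])

lemma two_eq_zero (b : Alg) : b + b = 0 := by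
  rw [← two_smul (ZMod 2) b, show (2 : ZMod 2) = 0 from rfl, zero_smul]

end Vale.Agent.P193.Bh.Alg.B
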