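import Vale.Agent.P193.Bh.Alg.B.Basic

/-!
# P193: the three block maps of the swindle algebra
-/

namespace Vale.Agent.P193.Bh.Alg.B

lemma proj_dF_dF (r : Fr) :
    proj (dF (dF r)) = pop false * pop true * proj (dF r) * (push true * push false) ∧
      push true * push false * (pop false * pop true) * proj (dF r) =
        proj (dF r) * (push true * push false * (pop false * pop true)) := by
  induction r using FreeAlgebra.induction with
  | grade0 k =>
    simp only [AlgHom.commutes]
    refine ⟨?_, (Algebra.commutes k _).symm⟩
    rw [← Algebra.commutes k (pop false * pop true), mul_assoc, mul_assoc (pop false)]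
    simp
  | grade1 i =>
    have h1 := code (i := i) (r := dF (FreeAlgebra.ι (ZMod 2) i) -
      (pushF false * FreeAlgebra.ι (ZMod 2) i * popF false +
        pushF true * zF (FreeAlgebra.ι (ZMod 2) i) * popF true)) (by simp [relCode])
    have h2 := code (i := i) (r := dF (dF (FreeAlgebra.ι (ZMod 2) i)) -
      popF false * popF true * dF (FreeAlgebra.ι (ZMod 2) i) * (pushF true * pushF false))
      (by simp [relCode])
    simp only [map_sub, map_add, map_mul, sub_eq_zero] at h1 h2
    refine ⟨h2, ?_⟩
    rw [h1]
    simp [zF, push, pop, mul_add, add_mul, mul_assoc]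
    simp only [← mul_assoc]
    simp [mul_assoc, ← push.eq_1, ← pop.eq_1]
  | mul a b iha ihb =>
    simp only [map_mul]
    constructor
    · rw [iha.1, ihb.1]
      calc pop false * pop true * proj (dF a) * (push true * push false) *
            (pop false * pop true * proj (dF b) * (push true * push false))
          = pop false * pop true *
              (proj (dF a) * (push true * push false * (pop false * pop true))) *
              proj (dF b) * (push true * push false) := by simp only [mul_assoc]
        _ = pop false * pop true * (proj (dF a) * proj (dF b)) * (push true * push false) := by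
          rw [← iha.2]
          simp [mul_assoc]
    · rw [← mul_assoc, iha.2, mul_assoc, ihb.2]
      simp only [mul_assoc]
  | add a b iha ihb =>
    simp only [map_add]
    exact ⟨by rw [iha.1, ihb.1, mul_add, add_mul], by rw [mul_add, add_mul, iha.2, ihb.2]⟩

lemma proj_dF_eq_zero {r : Fr} (h : proj r = 0) : proj (dF r) = 0 := by
  classical
  have hle : TwoSidedIdeal.span (rels : Set Fr) ≤ TwoSidedIdeal.ker (proj.comp dF) := by
    refine TwoSidedIdeal.span_le.2 fun x hx => ?_
    rw [SetLike.mem_coe, TwoSidedIdeal.mem_ker]
    rcases Finset.mem_union.1 hx with hx | hx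
    · exact (proj_of_mem (List.mem_toFinset.1 hx)).2
    · obtain ⟨y, hy, rfl⟩ := Finset.mem_image.1 hx
      show proj (dF (dF y)) = 0
      rw [(proj_dF_dF y).1, (proj_of_mem (List.mem_toFinset.1 hy)).2]
      simp
  exact (TwoSidedIdeal.mem_ker (proj.comp dF)).1 (hle (proj_eq_zero_iff.1 h))

/-- After a block of `C`. -/
noncomputable def yMap : Alg →ₐ[ZMod 2] Alg :=
  Ideal.Quotient.liftₐ relIdeal (proj.comp dF) fun _ hr =>
    proj_dF_eq_zero (proj_eq_zero_iff.2 (TwoSidedIdeal.mem_asIdeal.1 hr))

lemma yMap_proj (r : Fr) : yMap (proj r) = proj (dF r) := rfl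

/-- After a block of `X`. -/
noncomputable def xMap (b : Alg) : Alg := pop true * pop true * yMap b * (push true * push true)

/-- After one bit of a block of `C`. -/
noncomputable def zMap (b : Alg) : Alg :=
  push false * yMap (yMap b) * pop false + push true * xMap b * pop true

lemma xMap_proj (r : Fr) : xMap (proj r) = proj (xF r) := by
  simp [xMap, xF, yMap_proj, push, pop]

lemma zMap_proj (r : Fr) : zMap (proj r) = proj (zF r) := by
  simp [zMap, zF, yMap_proj, xMap_proj, push, pop]

lemma map_eqs (b : Alg) :
    yMap b = push false * b * pop false + push true * zMap b * pop true ∧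
      xMap b = push false * b * pop false + push true * xMap b * pop true := by
  obtain ⟨r, rfl⟩ := proj_surjective b
  induction r using FreeAlgebra.induction with
  | grade0 k =>
    have hk : ∀ b : Alg, b * proj (algebraMap (ZMod 2) Fr k) = proj (algebraMap _ Fr k) * b :=
      fun b => by rw [AlgHom.commutes]; exact (Algebra.commutes k b).symm
    have hy : yMap (proj (algebraMap (ZMod 2) Fr k)) = proj (algebraMap _ Fr k) := by
      rw [AlgHom.commutes, AlgHom.commutes]
    have hx : xMap (proj (algebraMap (ZMod 2) Fr k)) = proj (algebraMap _ Fr k) := by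
      rw [xMap, hy, hk]; simp [mul_assoc]
    have hz : zMap (proj (algebraMap (ZMod 2) Fr k)) = proj (algebraMap _ Fr k) := by
      rw [zMap, hy, hy, hx, hk, hk, mul_assoc, mul_assoc, ← mul_add, sum_push_pop, mul_one]
    rw [hz, hx, hy, hk, hk, mul_assoc, mul_assoc, ← mul_add, sum_push_pop, mul_one]
    exact ⟨rfl, rfl⟩
  | grade1 i =>
    have h1 := code (i := i) (r := dF (FreeAlgebra.ι (ZMod 2) i) -
      (pushF false * FreeAlgebra.ι (ZMod 2) i * popF false +
        pushF true * zF (FreeAlgebra.ι (ZMod 2) i) * popF true)) (by simp [relCode])
    have h3 := code (i := i) (r := xF (FreeAlgebra.ι (ZMod 2) i) -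
      (pushF false * FreeAlgebra.ι (ZMod 2) i * popF false +
        pushF true * xF (FreeAlgebra.ι (ZMod 2) i) * popF true)) (by simp [relCode])
    simp only [map_sub, map_add, map_mul, sub_eq_zero] at h1 h3
    rw [zMap_proj, xMap_proj, yMap_proj]
    exact ⟨h1, h3⟩
  | mul a b iha ihb =>
    rw [map_mul]
    generalize proj a = a at *
    generalize proj b = b at *
    have e1 : pop true * pop true * yMap a = xMap a * (pop true * pop true) := by
      conv_lhs => rw [iha.1]
      simp [zMap, mul_add, add_mul, mul_assoc]
    have ex : xMap (a * b) = xMap a * xMap b := by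
      rw [xMap, map_mul, ← mul_assoc (pop true * pop true), e1, xMap.eq_1 b]
      simp only [mul_assoc]
    have ez : zMap (a * b) = zMap a * zMap b := by
      simp [zMap, ex, map_mul, mul_add, add_mul, mul_assoc]
    constructor
    · rw [ez, map_mul, iha.1, ihb.1]
      simp [mul_add, add_mul, mul_assoc]
    · rw [ex]
      conv_lhs => rw [iha.2, ihb.2]
      simp [mul_add, add_mul, mul_assoc]
  | add a b iha ihb =>
    rw [map_add]
    have ex : xMap (proj a + proj b) = xMap (proj a) + xMap (proj b) := by
      simp [xMap, mul_add, add_mul]
    have ez : zMap (proj a + proj b) = zMap (proj a) + zMap (proj b) := by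
      simp [zMap, ex, mul_add, add_mul]; abel
    rw [map_add, ex, ez]
    refine ⟨?_, ?_⟩
    · conv_lhs => rw [iha.1, ihb.1]
      simp only [mul_add, add_mul]; abel
    · conv_lhs => rw [iha.2, ihb.2]
      simp only [mul_add, add_mul]; abel

/-- The heads: inside a block of `X`, before and inside a block of `C`. -/
inductive Hd
  | x
  | y
  | z
  deriving DecidableEq

/-- The heads left after reading a bit. -/
def step : Bool → Hd → List Hd
  | false, .x => []
  | false, .y => []
  | false, .z => [.y, .y]
  | true, .x => [.x]
  | true, .y => [.z]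
  | true, .z => [.x]

/-- The map of a head. -/
noncomputable def hop : Hd → Alg → Alg
  | .x => xMap
  | .y => yMap
  | .z => zMap

/-- The map of a list of heads, the first one outermost. -/
noncomputable def hops (l : List Hd) (b : Alg) : Alg := l.foldr hop b

lemma hops_cons (v : Hd) (l : List Hd) (b : Alg) : hops (v :: l) b = hop v (hops l b) := rfl

lemma hops_append (l m : List Hd) (b : Alg) : hops (l ++ m) b = hops l (hops m b) :=
  List.foldr_append ..

lemma hop_eq (v : Hd) (b : Alg) :
    hop v b = push false * hops (step false v) b * pop false +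
      push true * hops (step true v) b * pop true := by
  cases v
  · exact (map_eqs b).2
  · exact (map_eqs b).1
  · rfl

lemma pop_hop (a : Bool) (v : Hd) (b : Alg) : pop a * hop v b = hops (step a v) b * pop a := by
  rw [hop_eq]
  cases a <;> simp [mul_add, mul_assoc]

lemma hop_push (a : Bool) (v : Hd) (b : Alg) : hop v b * push a = push a * hops (step a v) b := by
  rw [hop_eq]
  cases a <;> simp [add_mul, mul_assoc]

lemma pop_hop_assoc (a : Bool) (v : Hd) (b c : Alg) :
    pop a * (hop v b * c) = hops (step a v) b * (pop a * c) := by
  rw [← mul_assoc, pop_hop, mul_assoc]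

lemma hop_push_assoc (a : Bool) (v : Hd) (b c : Alg) :
    hop v b * (push a * c) = push a * (hops (step a v) b * c) := by
  rw [← mul_assoc, hop_push, mul_assoc]

lemma hop_mul (v : Hd) (a b : Alg) : hop v (a * b) = hop v a * hop v b := by
  cases v
  · show xMap (a * b) = xMap a * xMap b
    have e1 : pop true * pop true * yMap a = xMap a * (pop true * pop true) := by
      conv_lhs => rw [(map_eqs a).1]
      simp [zMap, mul_add, add_mul, mul_assoc]
    rw [xMap, map_mul, ← mul_assoc (pop true * pop true), e1, xMap.eq_1 b]
    simp only [mul_assoc]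
  · exact map_mul yMap a b
  · show zMap (a * b) = zMap a * zMap b
    have e1 : pop true * pop true * yMap a = xMap a * (pop true * pop true) := by
      conv_lhs => rw [(map_eqs a).1]
      simp [zMap, mul_add, add_mul, mul_assoc]
    have ex : xMap (a * b) = xMap a * xMap b := by
      rw [xMap, map_mul, ← mul_assoc (pop true * pop true), e1, xMap.eq_1 b]
      simp only [mul_assoc]
    simp [zMap, ex, mul_add, add_mul, mul_assoc]

lemma hop_one (v : Hd) : hop v 1 = 1 := by
  have hx : xMap 1 = 1 := by simp [xMap, mul_assoc]
  cases v
  · exact hx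
  · exact map_one yMap
  · show zMap 1 = 1
    simp [zMap, hx, sum_push_pop]

lemma hop_add (v : Hd) (a b : Alg) : hop v (a + b) = hop v a + hop v b := by
  cases v <;> simp [hop, xMap, zMap, mul_add, add_mul] <;> abel

lemma hop_zero (v : Hd) : hop v 0 = 0 := by
  cases v <;> simp [hop, xMap, zMap]

lemma hops_zero (l : List Hd) : hops l 0 = 0 := by
  induction l with
  | nil => rfl
  | cons v l ih => rw [hops_cons, ih, hop_zero]

lemma hops_add (l : List Hd) (a b : Alg) : hops l (a + b) = hops l a + hops l b := by
  induction l with
  | nil => rfl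
  | cons v l ih => rw [hops_cons, ih, hop_add, hops_cons, hops_cons]

lemma hops_mul (l : List Hd) (a b : Alg) : hops l (a * b) = hops l a * hops l b := by
  induction l with
  | nil => rfl
  | cons v l ih => rw [hops_cons, ih, hop_mul, hops_cons, hops_cons]

/-- The swindle endomorphism. -/
noncomputable def swMap : Alg →ₐ[ZMod 2] Alg where
  toFun := xMap
  map_one' := hop_one .x
  map_mul' := hop_mul .x
  map_zero' := hop_zero .x
  map_add' := hop_add .x
  commutes' k := by
    show xMap _ = _
    rw [xMap, AlgHom.commutes, ← Algebra.commutes k (pop true * pop true), mul_assoc]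
    simp [mul_assoc]

lemma swMap_eq (b : Alg) :
    swMap b = push false * b * pop false + push true * swMap b * pop true :=
  (map_eqs b).2

end Vale.Agent.P193.Bh.Alg.B
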