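import Vale.Agent.P193.Bh.Alg.B.Endo

/-!
# P193: the swindle algebra on strings of bits

A string of bits with zero tail is a natural number, its first bit being the last binary digit.
-/

namespace Vale.Agent.P193.Bh.Alg.B

/-- The space of the model. -/
abbrev Vec : Type := ℕ →₀ ZMod 2

/-- Operators on the model. -/
abbrev Op : Type := Module.End (ZMod 2) Vec

/-- The operator with the given values on the basis. -/
noncomputable def ofBasis (f : ℕ → Vec) : Op := Finsupp.linearCombination (ZMod 2) f

lemma ofBasis_single (f : ℕ → Vec) (n : ℕ) : ofBasis f (Finsupp.single n 1) = f n := by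
  simp [ofBasis, Finsupp.linearCombination_single]

lemma op_ext {φ ψ : Op} (h : ∀ n, φ (Finsupp.single n 1) = ψ (Finsupp.single n 1)) : φ = ψ := by
  refine Finsupp.lhom_ext fun n c => ?_
  have : Finsupp.single n c = c • Finsupp.single n (1 : ZMod 2) := by simp
  rw [this, map_smul, map_smul, h]

/-- The number with first bit `a`. -/
def cons (a : Bool) (n : ℕ) : ℕ := 2 * n + if a then 1 else 0

/-- The first bit. -/
def lead (n : ℕ) : Bool := decide (n % 2 = 1)

@[simp] lemma lead_cons (a : Bool) (n : ℕ) : lead (cons a n) = a := by
  cases a <;> simp [lead, cons] <;> omega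

@[simp] lemma cons_div (a : Bool) (n : ℕ) : cons a n / 2 = n := by
  cases a <;> simp [cons] <;> omega

lemma cons_lead (n : ℕ) : cons (lead n) (n / 2) = n := by
  rcases Nat.mod_two_eq_zero_or_one n with h | h <;> simp [lead, cons, h] <;> omega

/-- Pushing a bit. -/
noncomputable def pushOp (a : Bool) : Op := ofBasis fun n => Finsupp.single (cons a n) 1

/-- Popping a bit. -/
noncomputable def popOp (a : Bool) : Op :=
  ofBasis fun n => if lead n = a then Finsupp.single (n / 2) 1 else 0

/-- The point projection. -/
noncomputable def ptOp : Op := ofBasis fun n => if n = 0 then Finsupp.single 0 1 else 0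

/-- Weight of a head. -/
def headWeight : Hd → ℕ
  | .x => 1
  | .y => 1
  | .z => 3

/-- Weight of a list of heads. -/
def stackWeight (l : List Hd) : ℕ := (l.map headWeight).sum

/-- An operator applied after the blocks of the heads `l`, on the string `n`. -/
noncomputable def act : List Hd → ℕ → Op → Vec
  | [], n, φ => φ (Finsupp.single n 1)
  | v :: l, n, φ => pushOp (lead n) (act (step (lead n) v ++ l) (n / 2) φ)
termination_by l n => (n, stackWeight l)
decreasing_by
  rcases Nat.eq_zero_or_pos n with h | h
  · subst h
    refine Prod.Lex.right _ ?_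
    cases v <;> simp [stackWeight, step, lead, headWeight] <;> omega
  · exact Prod.Lex.left _ _ (Nat.div_lt_self h (by omega))

/-- An operator applied after the blocks of the heads `l`. -/
noncomputable def after (l : List Hd) (φ : Op) : Op := ofBasis fun n => act l n φ

lemma after_single (l : List Hd) (φ : Op) (n : ℕ) :
    after l φ (Finsupp.single n 1) = act l n φ := ofBasis_single _ n

@[simp] lemma after_nil (φ : Op) : after [] φ = φ :=
  op_ext fun n => by rw [after_single, act]

lemma after_push (v : Hd) (l : List Hd) (φ : Op) (a : Bool) :
    after (v :: l) φ * pushOp a = pushOp a * after (step a v ++ l) φ := by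
  refine op_ext fun n => ?_
  rw [Module.End.mul_apply, Module.End.mul_apply, pushOp, ofBasis_single, after_single, act,
    lead_cons, cons_div, after_single]
  rfl

lemma pushOp_popOp (n : ℕ) :
    pushOp (lead n) (popOp (lead n) (Finsupp.single n 1)) = Finsupp.single n 1 := by
  rw [popOp, ofBasis_single, if_pos rfl, pushOp, ofBasis_single, cons_lead]

lemma single_eq_push (n : ℕ) :
    Finsupp.single n (1 : ZMod 2) = pushOp (lead n) (Finsupp.single (n / 2) 1) := by
  rw [pushOp, ofBasis_single, cons_lead]

lemma after_mul (l : List Hd) (φ ψ : Op) : after l (φ * ψ) = after l φ * after l ψ := by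
  refine op_ext fun n => ?_
  suffices ∀ (l : List Hd) (n : ℕ), act l n (φ * ψ) = after l φ (act l n ψ) by
    rw [Module.End.mul_apply, after_single, after_single, this]
  intro l n
  induction l, n, ψ using act.induct with
  | case1 n ψ => rw [act, act, after_nil]; rfl
  | case2 v l n ψ ih =>
    rw [act, act, ih, ← Module.End.mul_apply (after (v :: l) φ), after_push]
    rfl

lemma after_one (l : List Hd) : after l 1 = 1 := by
  refine op_ext fun n => ?_
  rw [after_single, Module.End.one_apply]
  have key : ∀ (l : List Hd) (n : ℕ) (φ : Op), φ = 1 →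
      act l n φ = Finsupp.single n 1 := by
    intro l n φ
    induction l, n, φ using act.induct with
    | case1 n φ => intro h; rw [act, h, Module.End.one_apply]
    | case2 φ v l n ih => intro h; rw [act, ih h, ← single_eq_push]
  exact key l n 1 rfl

lemma after_add (l : List Hd) (φ ψ : Op) : after l (φ + ψ) = after l φ + after l ψ := by
  refine op_ext fun n => ?_
  rw [LinearMap.add_apply, after_single, after_single, after_single]
  have key : ∀ (l : List Hd) (n : ℕ) (χ : Op), χ = φ + ψ →
      act l n χ = act l n φ + act l n ψ := by
    intro l n χ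
    induction l, n, χ using act.induct with
    | case1 n χ => intro h; rw [act, act, act, h, LinearMap.add_apply]
    | case2 χ v l n ih => intro h; rw [act, act, act, ih h, map_add]
  exact key l n _ rfl

lemma after_smul (l : List Hd) (c : ZMod 2) (φ : Op) : after l (c • φ) = c • after l φ := by
  fin_cases c
  · show after l (0 • φ) = (0 : ZMod 2) • _
    have h := after_add l 0 0
    rw [add_zero] at h
    have h0 : after l 0 = 0 := op_ext fun n => by
      simpa using congrArg (fun f : Op => f (Finsupp.single n 1)) h
    simp [h0]
  · show after l ((1 : ZMod 2) • φ) = (1 : ZMod 2) • _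
    rw [one_smul, one_smul]

/-- `after l` as an algebra map. -/
noncomputable def afterHom (l : List Hd) : Op →ₐ[ZMod 2] Op :=
  AlgHom.ofLinearMap ⟨⟨after l, after_add l⟩, after_smul l⟩ (after_one l) (after_mul l)

lemma after_append (l m : List Hd) (φ : Op) : after (l ++ m) φ = after l (after m φ) := by
  refine op_ext fun n => ?_
  rw [after_single, after_single]
  have key : ∀ (l : List Hd) (n : ℕ) (χ : Op), χ = after m φ →
      act (l ++ m) n φ = act l n χ := by
    intro l n χ
    induction l, n, χ using act.induct with
    | case1 n χ => intro h; rw [List.nil_append, act, h, after_single]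
    | case2 χ v l n ih =>
      intro h
      rw [List.cons_append, act, act, ← ih h, List.append_assoc]
  exact key l n _ rfl

lemma popOp_pushOp (a b : Bool) : popOp a * pushOp b = if a = b then 1 else 0 := by
  refine op_ext fun n => ?_
  rw [Module.End.mul_apply, pushOp, ofBasis_single, popOp, ofBasis_single, lead_cons, cons_div]
  cases a <;> cases b <;> simp

lemma sum_pushOp_popOp : pushOp false * popOp false + pushOp true * popOp true = 1 := by
  refine op_ext fun n => ?_
  rw [LinearMap.add_apply, Module.End.mul_apply, Module.End.mul_apply, Module.End.one_apply]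
  have h := pushOp_popOp n
  cases hl : lead n <;> rw [hl] at h <;> simp only [popOp, ofBasis_single, hl] at h ⊢ <;>
    simp_all

lemma after_eq (v : Hd) (l : List Hd) (φ : Op) :
    after (v :: l) φ = pushOp false * after (step false v ++ l) φ * popOp false +
      pushOp true * after (step true v ++ l) φ * popOp true := by
  rw [← after_push, ← after_push, mul_assoc, mul_assoc, ← mul_add, sum_pushOp_popOp, mul_one]

/-- The generators in the model. -/
noncomputable def genOp : Fin 5 → Op :=
  ![pushOp false, pushOp true, popOp false, popOp true, ptOp]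

/-- The model on the free algebra. -/
noncomputable def repF : Fr →ₐ[ZMod 2] Op :=
  FreeAlgebra.lift (ZMod 2) (Fin.addCases (motive := fun _ => Op) genOp fun i => after [.y] (genOp i))

lemma repF_gen (i : Fin 5) : repF (gen i) = genOp i := by
  simp [repF, gen]

lemma repF_push (a : Bool) : repF (pushF a) = pushOp a := by
  cases a <;> simp [pushF, repF_gen, genOp]

lemma repF_pop (a : Bool) : repF (popF a) = popOp a := by
  cases a <;> simp [popF, repF_gen, genOp]

lemma after_yy (φ : Op) :
    popOp false * popOp true * after [.y] φ * (pushOp true * pushOp false) =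
      after [.y, .y] φ := by
  rw [mul_assoc (popOp false * popOp true), ← mul_assoc (after [.y] φ), after_push]
  simp only [step, List.append_nil]
  rw [mul_assoc (pushOp true), after_push]
  simp only [step, List.append_nil, ← mul_assoc]
  rw [mul_assoc (popOp false) (popOp true), popOp_pushOp, if_pos rfl, mul_one, popOp_pushOp,
    if_pos rfl, one_mul]

lemma after_xx (φ : Op) :
    popOp true * popOp true * after [.y] φ * (pushOp true * pushOp true) = after [.x] φ := by
  rw [mul_assoc (popOp true * popOp true), ← mul_assoc (after [.y] φ), after_push]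
  simp only [step, List.append_nil]
  rw [mul_assoc (pushOp true), after_push]
  simp only [step, List.append_nil, ← mul_assoc]
  rw [mul_assoc (popOp true) (popOp true), popOp_pushOp, if_pos rfl, mul_one, popOp_pushOp,
    if_pos rfl, one_mul]

lemma repF_dF (r : Fr) : repF (dF r) = after [.y] (repF r) := by
  suffices h : repF.comp dF = (afterHom [.y]).comp repF from AlgHom.congr_fun h r
  refine FreeAlgebra.hom_ext (funext fun i => ?_)
  show repF (dF (FreeAlgebra.ι (ZMod 2) i)) = after [.y] (repF (FreeAlgebra.ι (ZMod 2) i))
  induction i using Fin.addCases (m := 5) (n := 5) with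
  | left i => simp [dF, repF, dgen, -Fin.natAdd_eq_addNat]
  | right i =>
    have h1 : repF (FreeAlgebra.ι (ZMod 2) (Fin.natAdd 5 i)) = after [.y] (genOp i) := by
      simp [repF, -Fin.natAdd_eq_addNat]
    rw [h1, ← after_append, List.singleton_append, ← after_yy, ← h1]
    simp [dF, dgen, repF_push, repF_pop, -Fin.natAdd_eq_addNat]

lemma repF_rels {r : Fr} (h : r ∈ relLeavitt ++ (List.finRange 10).flatMap relCode) :
    repF r = 0 := by
  rcases List.mem_append.1 h with h | h
  · simp only [relLeavitt, List.mem_cons, List.not_mem_nil, or_false] at h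
    rcases h with rfl | rfl | rfl | rfl | rfl | rfl | rfl | rfl | rfl | rfl | rfl | rfl <;>
      simp only [map_sub, map_add, map_mul, map_one, repF_push, repF_pop, ptF, repF_gen, genOp,
        popOp_pushOp, sum_pushOp_popOp, sub_self, Bool.false_eq_true, reduceIte] <;>
      first
        | rfl
        | (rw [sub_eq_zero]; refine op_ext fun n => ?_
           simp [ptOp, pushOp, popOp, ofBasis_single, cons, lead]
           all_goals (split_ifs <;> simp_all [ofBasis_single, cons, lead] <;> omega))
        | (refine op_ext fun n => ?_
           simp [ptOp, pushOp, popOp, ofBasis_single, cons, lead]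
           all_goals (split_ifs <;> simp_all [ofBasis_single, cons, lead] <;> omega))
  · obtain ⟨i, _, h⟩ := List.mem_flatMap.1 h
    simp only [relCode, List.mem_cons, List.not_mem_nil, or_false] at h
    rcases h with rfl | rfl | rfl <;> rw [map_sub, sub_eq_zero]
    · simp only [zF, xF, map_add, map_mul, repF_dF, repF_push, repF_pop, after_xx,
        ← after_append, List.singleton_append]
      conv_lhs => rw [after_eq]
      simp only [step, List.append_nil, after_nil]
      conv_lhs => rw [after_eq .z]
      simp [step]
    · simp only [xF, map_add, map_mul, repF_dF, repF_push, repF_pop, after_xx]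
      conv_lhs => rw [after_eq]
      simp [step]
    · simp only [map_mul, repF_dF, repF_push, repF_pop, after_yy, ← after_append,
        List.singleton_append]

lemma repF_eq_zero {r : Fr} (h : proj r = 0) : repF r = 0 := by
  classical
  have hle : TwoSidedIdeal.span (rels : Set Fr) ≤ TwoSidedIdeal.ker repF := by
    refine TwoSidedIdeal.span_le.2 fun x hx => ?_
    rw [SetLike.mem_coe, TwoSidedIdeal.mem_ker]
    rcases Finset.mem_union.1 hx with hx | hx
    · exact repF_rels (List.mem_toFinset.1 hx)
    · obtain ⟨y, hy, rfl⟩ := Finset.mem_image.1 hx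
      rw [repF_dF, repF_rels (List.mem_toFinset.1 hy)]
      exact map_zero (afterHom [.y])
  exact (TwoSidedIdeal.mem_ker repF).1 (hle (proj_eq_zero_iff.1 h))

/-- The model. -/
noncomputable def rep : Alg →ₐ[ZMod 2] Op :=
  Ideal.Quotient.liftₐ relIdeal repF fun _ hr =>
    repF_eq_zero (proj_eq_zero_iff.2 (TwoSidedIdeal.mem_asIdeal.1 hr))

lemma rep_proj (r : Fr) : rep (proj r) = repF r := rfl

@[simp] lemma rep_push (a : Bool) : rep (push a) = pushOp a := repF_push a

@[simp] lemma rep_pop (a : Bool) : rep (pop a) = popOp a := repF_pop a

@[simp] lemma rep_pt : rep pt = ptOp := by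
  rw [pt, rep_proj, ptF, repF_gen]; rfl

lemma rep_hop (v : Hd) (b : Alg) : rep (hop v b) = after [v] (rep b) := by
  obtain ⟨r, rfl⟩ := proj_surjective b
  have hx : rep (xMap (proj r)) = after [.x] (rep (proj r)) := by
    rw [xMap, map_mul, map_mul, map_mul, map_mul, yMap_proj, rep_proj, repF_dF, rep_pop,
      rep_push, after_xx, rep_proj]
  cases v
  · exact hx
  · show rep (yMap (proj r)) = _
    rw [yMap_proj, rep_proj, repF_dF, rep_proj]
  · show rep (zMap (proj r)) = _
    rw [zMap, map_add, map_mul, map_mul, map_mul, map_mul, hx, yMap_proj, yMap_proj, rep_proj,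
      repF_dF, repF_dF, ← after_append, after_eq .z]
    simp [step, rep_proj]

end Vale.Agent.P193.Bh.Alg.B
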