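import Vale.Agent.P193.Bh.Alg.B.Span
import Vale.Agent.P193.Bh.Alg.B.Model

/-!
# P193: the model of the swindle algebra is faithful

A vanishing sum of forms is traced through branches and long probes until it is a sum of pushes,
possibly followed by the point, which cancel in pairs.
-/

namespace Vale.Agent.P193.Bh.Alg.B

/-- Pushing a word. -/
noncomputable def pushW : List Bool → Alg
  | [] => 1
  | a :: l => push a * pushW l

/-- Popping a word. -/
noncomputable def popW : List Bool → Alg
  | [] => 1
  | a :: l => popW l * pop a

lemma pushW_append (p q : List Bool) : pushW (p ++ q) = pushW p * pushW q := by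
  induction p with
  | nil => simp [pushW]
  | cons a p ih => simp [pushW, ih, mul_assoc]

lemma popW_mul_pushW_self (p : List Bool) : popW p * pushW p = 1 := by
  induction p with
  | nil => simp [pushW, popW]
  | cons a p ih => simp [pushW, popW, mul_assoc, ih]

lemma popW_mul_pushW_eq_zero : ∀ (p q : List Bool) (i : ℕ) (a b : Bool),
    p[i]? = some a → q[i]? = some b → a ≠ b → popW p * pushW q = 0
  | [], _, _, _, _, hp, _, _ => by simp at hp
  | _ :: _, [], _, _, _, _, hq, _ => by simp at hq
  | c :: p, d :: q, 0, a, b, hp, hq, hab => by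
    simp only [List.getElem?_cons_zero, Option.some.injEq] at hp hq
    subst hp hq
    simp [pushW, popW, mul_assoc, hab]
  | c :: p, d :: q, i + 1, a, b, hp, hq, hab => by
    simp only [List.getElem?_cons_succ] at hp hq
    rw [pushW, popW, mul_assoc, pop_push_assoc]
    split
    · exact popW_mul_pushW_eq_zero p q i a b hp hq hab
    · exact mul_zero _

/-- A long block of both codes. -/
def blk (k : ℕ) : List Bool := List.replicate (k + 2) true ++ [false]

lemma popW_blk {k : ℕ} {p q : List Bool} (hp : p.length ≤ k) (hq : q.length ≤ k) :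
    popW (p ++ blk k) * pushW (q ++ blk k) = if q = p then 1 else 0 := by
  split
  case isTrue h => rw [h, popW_mul_pushW_self]
  case isFalse h =>
    rcases Nat.lt_trichotomy p.length q.length with hl | hl | hl
    · refine popW_mul_pushW_eq_zero _ _ (p.length + (k + 2)) false true ?_ ?_ (by simp)
      · simp [blk]
      · rw [List.getElem?_append_right (by omega), blk, List.getElem?_append_left (by simp; omega),
          List.getElem?_replicate, if_pos (by omega)]
    · obtain ⟨i, hi⟩ : ∃ i, q[i]? ≠ p[i]? :=
        Classical.not_forall.1 fun hc => h (List.ext_getElem? hc)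
      have hip : i < p.length := by
        by_contra hc
        simp [List.getElem?_eq_none (show p.length ≤ i by omega),
          List.getElem?_eq_none (show q.length ≤ i by omega)] at hi
      have hiq : i < q.length := hl ▸ hip
      refine popW_mul_pushW_eq_zero _ _ i p[i] q[i] ?_ ?_ fun e => hi ?_
      · simp [List.getElem?_append_left hip, List.getElem?_eq_getElem hip]
      · simp [List.getElem?_append_left hiq, List.getElem?_eq_getElem hiq]
      · rw [List.getElem?_eq_getElem hip, List.getElem?_eq_getElem hiq, e]
    · refine popW_mul_pushW_eq_zero _ _ (q.length + (k + 2)) true false ?_ ?_ (by simp)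
      · rw [List.getElem?_append_right (by omega), blk, List.getElem?_append_left (by simp; omega),
          List.getElem?_replicate, if_pos (by omega)]
      · simp [blk]

lemma hop_push11 (v : Hd) (b : Alg) :
    hop v b * (push true * push true) = push true * push true * hop .x b := by
  rw [hop_push_assoc]
  cases v <;> simp [step, hops, hop_push, mul_assoc]

lemma hop_blk (v : Hd) (b : Alg) : ∀ k, hop v b * pushW (blk k) = pushW (blk k) * b := by
  have hx : ∀ j, hop .x b * pushW (List.replicate j true ++ [false]) =
      pushW (List.replicate j true ++ [false]) * b := by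
    intro j
    induction j with
    | zero => simp [pushW, hop_push, step, hops]
    | succ j ih =>
      simp only [List.replicate_succ, List.cons_append, pushW]
      rw [hop_push_assoc, show step true Hd.x = [.x] from rfl]
      simp only [hops, List.foldr_cons, List.foldr_nil]
      rw [show hop Hd.x b = hop Hd.x b from rfl, ih, mul_assoc]
  intro k
  simp only [blk, List.replicate_succ, List.cons_append, pushW]
  rw [← mul_assoc (push true) (push true), ← mul_assoc (hop v b), hop_push11, mul_assoc, hx,
    mul_assoc, mul_assoc, mul_assoc]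

/-- The pushes in front of a form. -/
def pre : Frm → List Bool
  | .push a F => a :: pre F
  | _ => []

/-- What follows the pushes in front of a form. -/
def core : Frm → Frm
  | .push _ F => core F
  | F => F

lemma ev_eq : ∀ F, ev F = pushW (pre F) * ev (core F)
  | .push a F => by rw [ev, ev_eq F]; simp [pre, core, pushW, mul_assoc]
  | .one | .pt | .pull _ _ | .node _ _ => by simp [pre, core, pushW]

/-- A form followed by a push. -/
def rmul (a : Bool) : Frm → List Frm
  | .one => [.push a .one]
  | .pt => if a then [] else [.pt]
  | .push b F => (rmul a F).map (.push b)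
  | .pull F b => if b = a then [F] else []
  | .node v F => [.push a ((step a v).foldr .node F)]

/-- A form followed by the word `10`. -/
def rmul10 (F : Frm) : List Frm := (rmul true F).flatMap (rmul false)

lemma ev_foldr (l : List Hd) (F : Frm) : ev (l.foldr .node F) = hops l (ev F) := by
  induction l with
  | nil => rfl
  | cons v l ih => simp [ev, hops_cons, ih]

lemma evs_map_push (b : Bool) (L : List Frm) : evs (L.map (.push b)) = push b * evs L := by
  induction L with
  | nil => simp [evs]
  | cons F L ih => simp [evs_cons, ih, ev, mul_add]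

lemma evs_rmul (a : Bool) : ∀ F, evs (rmul a F) = ev F * push a
  | .one => by simp [rmul, evs, ev]
  | .pt => by cases a <;> simp [rmul, evs, ev]
  | .push b F => by rw [rmul, evs_map_push, evs_rmul a F, ev, mul_assoc]
  | .pull F b => by
    rw [rmul, ev, mul_assoc, pop_push]
    split <;> simp [evs]
  | .node v F => by simp [rmul, evs, ev, ev_foldr, hop_push]

lemma evs_flatMap (a : Bool) (L : List Frm) : evs (L.flatMap (rmul a)) = evs L * push a := by
  induction L with
  | nil => simp [evs]
  | cons F L ih => rw [List.flatMap_cons, evs_append, ih, evs_rmul, evs_cons, add_mul]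

lemma evs_flatMap10 (L : List Frm) :
    evs (L.flatMap rmul10) = evs L * (push true * push false) := by
  rw [show L.flatMap rmul10 = (L.flatMap (rmul true)).flatMap (rmul false) from
    List.flatMap_assoc.symm, evs_flatMap, evs_flatMap, mul_assoc]

/-- Number of pulls. -/
def nPull : Frm → ℕ
  | .pull F _ => nPull F + 1
  | .push _ F | .node _ F => nPull F
  | _ => 0

/-- Number of heads making new heads. -/
def nXZ : Frm → ℕ
  | .node v F => nXZ F + isXZ v
  | .push _ F | .pull F _ => nXZ F
  | _ => 0

/-- Weight of the heads. -/
def wt : Frm → ℕ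
  | .node v F => wt F + headWeight v
  | .push _ F | .pull F _ => wt F
  | _ => 0

/-- A statistic summed over a list. -/
def tot (f : Frm → ℕ) (L : List Frm) : ℕ := (L.map f).sum

lemma tot_le {f g : Frm → ℕ} {L : List Frm} (h : ∀ F ∈ L, f F ≤ g F) : tot f L ≤ tot g L :=
  List.sum_le_sum h

lemma tot_lt {f g : Frm → ℕ} {L : List Frm} (h : ∀ F ∈ L, f F ≤ g F)
    (hs : ∃ F ∈ L, f F < g F) : tot f L < tot g L :=
  List.sum_lt_sum _ _ h hs

lemma tot_flatMap (f : Frm → ℕ) (r : Frm → List Frm) (L : List Frm) :
    tot f (L.flatMap r) = tot (fun F => tot f (r F)) L := by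
  induction L with
  | nil => rfl
  | cons F L ih => simp_all [tot]

lemma tot_one (L : List Frm) : tot (fun _ => 1) L = L.length := by simp [tot]

lemma tot_map_push (b : Bool) (L : List Frm) :
    tot nPull (L.map (.push b)) = tot nPull L ∧ tot nXZ (L.map (.push b)) = tot nXZ L ∧
      tot wt (L.map (.push b)) = tot wt L := by
  simp [tot, Function.comp_def, nPull, nXZ, wt]

lemma stats_foldr (l : List Hd) (F : Frm) :
    nPull (l.foldr .node F) = nPull F ∧ nXZ (l.foldr .node F) = nXZ F + countXZ l ∧
      wt (l.foldr .node F) = wt F + stackWeight l := by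
  induction l with
  | nil => simp [countXZ, stackWeight]
  | cons v l ih =>
    simp [nPull, nXZ, wt, ih, countXZ, stackWeight]
    omega

/-- The form ends a block. -/
def IsPull (F : Frm) : Prop := ∃ G a, core F = .pull G a

/-- The form is a point. -/
def IsPt (F : Frm) : Prop := core F = .pt

/-- The form starts with a head. -/
def IsNode (F : Frm) : Prop := ∃ v G, core F = .node v G

/-- The form starts with a head making new heads. -/
def IsXZNode (F : Frm) : Prop := ∃ v G, core F = .node v G ∧ isXZ v = 1

lemma rmul_pull (a : Bool) : ∀ F, tot nPull (rmul a F) ≤ nPull F ∧ (rmul a F).length ≤ 1 ∧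
    (IsPull F → tot nPull (rmul a F) < nPull F)
  | .one => by simp [rmul, tot, nPull, IsPull, core]
  | .pt => by cases a <;> simp [rmul, tot, nPull, IsPull, core]
  | .push b F => by
    simpa [rmul, nPull, (tot_map_push b (rmul a F)).1, IsPull, core] using rmul_pull a F
  | .pull F b => by
    rw [rmul]
    split <;> simp [tot, nPull]
  | .node v F => by simp [rmul, tot, nPull, IsPull, core, (stats_foldr _ F).1]

lemma rmul_true_pt : ∀ F, IsPt F → rmul true F = []
  | .pt, _ => by simp [rmul]
  | .push b F, h => by simp [rmul, rmul_true_pt F h]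
  | .one, h | .pull _ _, h | .node _ _, h => by simp [IsPt, core] at h

lemma rmul_false_wt : ∀ F, tot nXZ (rmul false F) ≤ nXZ F ∧ tot wt (rmul false F) ≤ wt F ∧
    (IsNode F → tot wt (rmul false F) < wt F) ∧ (IsXZNode F → tot nXZ (rmul false F) < nXZ F)
  | .one => by simp [rmul, tot, nXZ, wt, IsNode, IsXZNode, core]
  | .pt => by simp [rmul, tot, nXZ, wt, IsNode, IsXZNode, core]
  | .push b F => by
    simpa [rmul, nXZ, wt, (tot_map_push b (rmul false F)).2, IsNode, IsXZNode, core] using
      rmul_false_wt F
  | .pull F b => by
    rw [rmul]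
    split <;> simp [tot, nXZ, wt, IsNode, IsXZNode, core]
  | .node v F => by
    have h := stats_foldr (step false v) F
    cases v <;> simp_all [rmul, tot, nXZ, wt, IsNode, IsXZNode, core, step, isXZ, countXZ,
      stackWeight, headWeight]

lemma rmul10_wt : ∀ F, ¬ IsPull F → tot nXZ (rmul10 F) ≤ nXZ F ∧
    tot nPull (rmul10 F) ≤ nPull F ∧ (rmul10 F).length ≤ 1 ∧
    (IsXZNode F → tot nXZ (rmul10 F) < nXZ F)
  | .one, _ => by simp [rmul10, rmul, tot, nXZ, nPull, IsXZNode, core]
  | .pt, _ => by simp [rmul10, rmul, tot, IsXZNode, core]
  | .push b F, h => by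
    have e : rmul10 (.push b F) = (rmul10 F).map (.push b) := by
      simp [rmul10, rmul, List.flatMap_map, List.map_flatMap]
    have ih := rmul10_wt F h
    simpa [e, nXZ, nPull, tot_map_push, IsXZNode, core] using ih
  | .pull F b, h => absurd ⟨F, b, rfl⟩ h
  | .node v F, _ => by
    cases v <;> simp [rmul10, rmul, step, tot, nXZ, nPull, wt, IsXZNode, core, isXZ]

/-- The statistics of a list. -/
def meas (L : List Frm) : ℕ ×ₗ ℕ ×ₗ ℕ ×ₗ ℕ :=
  toLex (tot nPull L, toLex (L.length, toLex (tot nXZ L, tot wt L)))

lemma meas_lt {L M : List Frm} (h : tot nPull L < tot nPull M ∨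
    tot nPull L ≤ tot nPull M ∧ (L.length < M.length ∨ L.length ≤ M.length ∧
      (tot nXZ L < tot nXZ M ∨ tot nXZ L ≤ tot nXZ M ∧ tot wt L < tot wt M))) :
    meas L < meas M := by
  simp only [meas, Prod.Lex.toLex_lt_toLex]
  omega

lemma branch_facts (a : Bool) (L : List Frm) :
    tot nPull (L.flatMap (rmul a)) ≤ tot nPull L ∧ (L.flatMap (rmul a)).length ≤ L.length := by
  rw [tot_flatMap, ← tot_one (L.flatMap _), tot_flatMap, ← tot_one L]
  exact ⟨tot_le fun F _ => (rmul_pull a F).1,
    tot_le fun F _ => by rw [tot_one]; exact (rmul_pull a F).2.1⟩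

/-- The model detects the sum. -/
def Good (L : List Frm) : Prop := rep (evs L) = 0 → evs L = 0

lemma good_of_branches {L : List Frm} (h : ∀ a, Good (L.flatMap (rmul a))) : Good L := by
  intro hL
  have hz : ∀ a, evs L * push a = 0 := fun a => by
    rw [← evs_flatMap]
    apply h a
    rw [evs_flatMap, map_mul, hL, zero_mul]
  rw [← mul_one (evs L), ← sum_push_pop, mul_add, ← mul_assoc, ← mul_assoc, hz, hz]
  simp

lemma good_of_pull {L : List Frm} (ih : ∀ M, meas M < meas L → Good M)
    (h : ∃ F ∈ L, IsPull F) : Good L := by
  refine good_of_branches fun a => ih _ (meas_lt (.inl ?_))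
  obtain ⟨F, hF, hp⟩ := h
  rw [tot_flatMap]
  exact tot_lt (fun G _ => (rmul_pull a G).1) ⟨F, hF, (rmul_pull a F).2.2 hp⟩

lemma good_of_pt_node {L : List Frm} (ih : ∀ M, meas M < meas L → Good M)
    (hpt : ∃ F ∈ L, IsPt F) (hnode : ∃ F ∈ L, IsNode F) : Good L := by
  refine good_of_branches fun a => ih _ (meas_lt (.inr ⟨(branch_facts a L).1, ?_⟩))
  cases a
  · refine .inr ⟨(branch_facts _ L).2, .inr ?_⟩
    obtain ⟨F, hF, hn⟩ := hnode
    rw [tot_flatMap, tot_flatMap]
    exact ⟨tot_le fun G _ => (rmul_false_wt G).1,
      tot_lt (fun G _ => (rmul_false_wt G).2.1) ⟨F, hF, (rmul_false_wt F).2.2.1 hn⟩⟩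
  · obtain ⟨F, hF, hp⟩ := hpt
    refine .inl ?_
    rw [← tot_one (L.flatMap _), tot_flatMap, ← tot_one L]
    refine tot_lt (fun G _ => by rw [tot_one]; exact (rmul_pull true G).2.1) ⟨F, hF, ?_⟩
    simp [tot_one, rmul_true_pt F hp]

/-- The element at a number. -/
noncomputable def col (n : ℕ) : Alg :=
  if n = 0 then pt else push (lead n) * col (n / 2)
termination_by n
decreasing_by omega

lemma push_col (a : Bool) (n : ℕ) : push a * col n = col (cons a n) := by
  by_cases h : cons a n = 0
  · obtain ⟨rfl, rfl⟩ : a = false ∧ n = 0 := by cases a <;> simp [cons] at h ⊢; omega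
    rw [h, col]
    simp [push_pt]
  · conv_rhs => rw [col, if_neg h, lead_cons, cons_div]

lemma pushW_mul_col (p : List Bool) (n : ℕ) : pushW p * col n = col (p.foldr cons n) := by
  induction p with
  | nil => simp [pushW]
  | cons a p ih => simp [pushW, mul_assoc, ih, push_col]

lemma rep_pushW_single (p : List Bool) (n : ℕ) :
    rep (pushW p) (Finsupp.single n 1) = Finsupp.single (p.foldr cons n) 1 := by
  induction p with
  | nil => simp [pushW]
  | cons a p ih => simp [pushW, ih, pushOp, ofBasis_single]

lemma rep_col_single (n : ℕ) : rep (col n) (Finsupp.single 0 1) = Finsupp.single n 1 := by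
  induction n using Nat.strong_induction_on with
  | _ n ih =>
    rw [col]
    split
    case isTrue h => simp [h, ptOp, ofBasis_single]
    case isFalse h => simp [ih (n / 2) (by omega), ← single_eq_push]

lemma foldr_cons_ne_zero : ∀ p : List Bool, p.foldr cons 1 ≠ 0
  | [] => by simp
  | a :: p => by
    have := foldr_cons_ne_zero p
    simp only [List.foldr_cons, cons]
    omega

lemma foldr_cons_injective : Function.Injective fun p : List Bool => p.foldr cons 1 := by
  intro p
  induction p with
  | nil =>
    intro q hq
    cases q with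
    | nil => rfl
    | cons a q =>
      have := foldr_cons_ne_zero q
      simp only [List.foldr_nil, List.foldr_cons, cons] at hq
      split at hq <;> omega
  | cons a p ih =>
    intro q hq
    cases q with
    | nil =>
      have := foldr_cons_ne_zero p
      simp only [List.foldr_nil, List.foldr_cons, cons] at hq
      split at hq <;> omega
    | cons b q =>
      simp only [List.foldr_cons] at hq
      have e : cons a (p.foldr cons 1) / 2 = cons b (q.foldr cons 1) / 2 := by rw [hq]
      simp only [cons_div] at e
      rw [← lead_cons a (p.foldr cons 1), hq, lead_cons, ih e]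

lemma sum_keys_eq_zero {K : Type} (f : K → Alg) (g : K → ℕ) (hg : Function.Injective g)
    (l : List K) (h : (l.map fun k => Finsupp.single (g k) (1 : ZMod 2)).sum = 0) :
    (l.map f).sum = 0 := by
  have hc : (l.map fun k => Finsupp.single k (1 : ZMod 2)).sum = 0 := by
    refine Finsupp.mapDomain_injective hg ?_
    rw [Finsupp.mapDomain_zero, ← Finsupp.mapDomain.addMonoidHom_apply, map_list_sum, List.map_map]
    simpa [Function.comp_def, Finsupp.mapDomain_single] using h
  have := congrArg (Finsupp.linearCombination (ZMod 2) f) hc
  rw [map_list_sum, List.map_map, map_zero] at this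
  simpa [Function.comp_def] using this

open Classical in
lemma good_of_base {L : List Frm} (h : ∀ F ∈ L, core F = .one ∨ core F = .pt) : Good L := by
  intro hL
  let L1 := L.filter fun F => decide (core F = .one)
  let L2 := L.filter fun F => decide (¬ core F = .one)
  have hsplit : evs L = evs L1 + evs L2 := by
    rw [← evs_append]
    have hp := List.filter_append_perm (fun F => decide (core F = .one)) L
    simp only [L1, L2, decide_not]
    exact ((hp.map ev).sum_eq).symm
  have h1 : evs L1 = (L1.map pre |>.map pushW).sum := by
    rw [evs, List.map_map]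
    refine congrArg _ (List.map_congr_left fun F hF => ?_)
    simp only [L1, List.mem_filter, decide_eq_true_eq] at hF
    simp [ev_eq F, hF.2, ev]
  have h2 : evs L2 = (L2.map (fun F => (pre F).foldr cons 0) |>.map col).sum := by
    rw [evs, List.map_map]
    refine congrArg _ (List.map_congr_left fun F hF => ?_)
    simp only [L2, List.mem_filter, decide_eq_true_eq] at hF
    rw [ev_eq F, (h F hF.1).resolve_left hF.2, Function.comp_apply, ← pushW_mul_col, col]
    simp [ev]
  have hsingle : ∀ (l : List Alg) (x : Vec), rep l.sum x = (l.map fun b => rep b x).sum := by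
    intro l x
    induction l with
    | nil => simp
    | cons b l ih => simp [ih]
  have z2 : rep (evs L2) (Finsupp.single 1 1) = 0 := by
    rw [h2, hsingle, List.map_map, List.map_map]
    refine List.sum_eq_zero fun x hx => ?_
    obtain ⟨F, hF, rfl⟩ := List.mem_map.1 hx
    simp only [Function.comp_apply, ← pushW_mul_col, map_mul, Module.End.mul_apply]
    rw [col]
    simp [ptOp, ofBasis_single]
  have e1 : evs L1 = 0 := by
    rw [h1]
    refine sum_keys_eq_zero pushW _ foldr_cons_injective _ ?_
    rw [hsplit, map_add] at hL
    have h3 : rep (evs L1) (Finsupp.single 1 1) = 0 := by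
      simpa [z2] using LinearMap.congr_fun hL (Finsupp.single 1 1)
    rw [h1, hsingle, List.map_map] at h3
    simpa [Function.comp_def, rep_pushW_single] using h3
  rw [hsplit, e1, zero_add, h2]
  refine sum_keys_eq_zero col id Function.injective_id _ ?_
  rw [hsplit, e1, zero_add, h2] at hL
  have h3 := LinearMap.congr_fun hL (Finsupp.single 0 1)
  rw [hsingle, List.map_map] at h3
  simpa [Function.comp_def, rep_col_single] using h3

/-- The sum of prefixed maps of forms. -/
noncomputable def groupVal (v : Hd) (items : List (List Bool × Frm)) : Alg :=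
  (items.map fun i => pushW i.1 * hop v (ev i.2)).sum

/-- The forms with the prefix `p`. -/
def group (items : List (List Bool × Frm)) (p : List Bool) : List Frm :=
  (items.filter fun i => i.1 = p).map Prod.snd

lemma groupVal_eq_zero (v : Hd) (items : List (List Bool × Frm))
    (h : ∀ p, evs (group items p) = 0) : groupVal v items = 0 := by
  let Φ : List Bool →₀ Alg := (items.map fun i => Finsupp.single i.1 (ev i.2)).sum
  have hΦ : ∀ (l : List (List Bool × Frm)) p,
      (l.map fun i => Finsupp.single i.1 (ev i.2)).sum p = evs (group l p) := by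
    intro l p
    induction l with
    | nil => simp [group, evs]
    | cons i l ih =>
      by_cases hp : i.1 = p <;> simp_all [group, evs, Finsupp.single_apply]
  have hz : Φ = 0 := Finsupp.ext fun p => (hΦ items p).trans (h p)
  let f : List Bool → Alg →+ Alg := fun p =>
    (AddMonoidHom.mulLeft (pushW p)).comp ⟨⟨hop v, hop_zero v⟩, hop_add v⟩
  have := congrArg (Finsupp.liftAddHom f) hz
  simp only [Φ, map_list_sum, List.map_map, map_zero] at this
  simpa [groupVal, f, Function.comp_def, Finsupp.sum_single_index, hop_zero] using this

lemma rep_group_eq_zero (v : Hd) (items : List (List Bool × Frm))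
    (h : rep (groupVal v items) = 0) (p : List Bool) : rep (evs (group items p)) = 0 := by
  by_cases hp : p ∈ items.map Prod.fst
  swap
  · have : group items p = [] := by
      simp only [group, List.map_eq_nil_iff, List.filter_eq_nil_iff, decide_eq_true_eq]
      exact fun i hi e => hp (List.mem_map.2 ⟨i, hi, e⟩)
    simp [this, evs]
  let k := (items.map fun i => i.1.length).sum
  have hk : ∀ i ∈ items, i.1.length ≤ k := fun i hi =>
    List.le_sum_of_mem (List.mem_map.2 ⟨i, hi, rfl⟩)
  obtain ⟨i₀, hi₀, rfl⟩ := List.mem_map.1 hp
  have key : ∀ l : List (List Bool × Frm), (∀ i ∈ l, i.1.length ≤ k) →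
      popW (i₀.1 ++ blk k) * groupVal v l * pushW (blk k) = evs (group l i₀.1) := by
    intro l hl
    induction l with
    | nil => simp [groupVal, group, evs]
    | cons i l ih =>
      have h' := ih fun j hj => hl j (List.mem_cons_of_mem _ hj)
      simp only [groupVal, List.map_cons, List.sum_cons, mul_add, add_mul] at h' ⊢
      rw [h', mul_assoc, mul_assoc (pushW i.1), hop_blk, ← mul_assoc (pushW i.1), ← pushW_append,
        ← mul_assoc, popW_blk (hk i₀ hi₀) (hl i List.mem_cons_self)]
      by_cases hp : i.1 = i₀.1 <;> simp [group, evs, hp]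
  rw [← key items hk, map_mul, map_mul, h]
  simp

/-- What follows the head. -/
def inner : Frm → Frm
  | .node _ G => G
  | F => F

lemma inner_facts : ∀ F, ¬ IsPull F → nPull (inner (core F)) ≤ nPull F ∧
    nXZ (inner (core F)) ≤ nXZ F ∧ wt (inner (core F)) ≤ wt F ∧
    (IsNode F → wt (inner (core F)) < wt F) ∧ (IsXZNode F → nXZ (inner (core F)) < nXZ F)
  | .one, _ => by simp [inner, core, IsNode, IsXZNode]
  | .pt, _ => by simp [inner, core, IsNode, IsXZNode]
  | .pull F a, h => absurd ⟨F, a, rfl⟩ h
  | .push a F, h => by simpa [core, nPull, nXZ, wt, IsNode, IsXZNode] using inner_facts F h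
  | .node v F, _ => by
    cases v <;> simp [inner, core, nPull, nXZ, wt, IsNode, IsXZNode, isXZ, headWeight]

lemma good_group {L : List Frm} (ih : ∀ M, meas M < meas L → Good M) (hL : ∀ F ∈ L, ¬ IsPull F)
    (v : Hd) (items : List (List Bool × Frm))
    (hitems : items.map Prod.snd = L.map fun F => inner (core F))
    (hstrict : (∃ F ∈ L, IsXZNode F) ∨ ∃ F ∈ L, IsNode F)
    (h : rep (groupVal v items) = 0) : groupVal v items = 0 := by
  refine groupVal_eq_zero v items fun p => ih _ (meas_lt ?_) (rep_group_eq_zero v items h p)
  have hsub : (group items p).Sublist (L.map fun F => inner (core F)) :=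
    hitems ▸ List.filter_sublist.map _
  have hle : ∀ f : Frm → ℕ, tot f (group items p) ≤ tot (fun F => f (inner (core F))) L := by
    intro f
    refine (List.Sublist.sum_le_sum (hsub.map f) fun _ _ => Nat.zero_le _).trans ?_
    simp [tot, Function.comp_def]
  refine .inr ⟨(hle nPull).trans (tot_le fun F hF => (inner_facts F (hL F hF)).1),
    .inr ⟨by simpa using hsub.length_le, ?_⟩⟩
  have hX := (hle nXZ).trans (tot_le fun F hF => (inner_facts F (hL F hF)).2.1)
  rcases hstrict with ⟨F, hF, hn⟩ | ⟨F, hF, hn⟩
  · exact .inl ((hle nXZ).trans_lt (tot_lt (fun G hG => (inner_facts G (hL G hG)).2.1)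
      ⟨F, hF, (inner_facts F (hL F hF)).2.2.2.2 hn⟩))
  · exact .inr ⟨hX, (hle wt).trans_lt (tot_lt (fun G hG => (inner_facts G (hL G hG)).2.2.1)
      ⟨F, hF, (inner_facts F (hL F hF)).2.2.2.1 hn⟩)⟩

lemma good_of_heads {L : List Frm} (ih : ∀ M, meas M < meas L → Good M)
    (hpull : ∀ F ∈ L, ¬ IsPull F) (hpt : ∀ F ∈ L, ¬ IsPt F) (hnode : ∃ F ∈ L, IsNode F) :
    Good L := by
  intro hL
  by_cases hxz : ∃ F ∈ L, IsXZNode F
  · obtain ⟨F₀, hF₀, hF₀'⟩ := hxz
    have h0 : evs L * push false = 0 := by
      rw [← evs_flatMap]
      refine ih _ (meas_lt (.inr ⟨(branch_facts _ L).1, .inr ⟨(branch_facts _ L).2, .inl ?_⟩⟩)) ?_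
      · rw [tot_flatMap]
        exact tot_lt (fun G _ => (rmul_false_wt G).1) ⟨F₀, hF₀, (rmul_false_wt F₀).2.2.2 hF₀'⟩
      · rw [evs_flatMap, map_mul, hL, zero_mul]
    have h10 : evs L * (push true * push false) = 0 := by
      rw [← evs_flatMap10]
      refine ih _ (meas_lt (.inr ⟨?_, .inr ⟨?_, .inl ?_⟩⟩)) ?_
      · rw [tot_flatMap]; exact tot_le fun G hG => (rmul10_wt G (hpull G hG)).2.1
      · rw [← tot_one (L.flatMap _), tot_flatMap, ← tot_one L]
        exact tot_le fun G hG => by rw [tot_one]; exact (rmul10_wt G (hpull G hG)).2.2.1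
      · rw [tot_flatMap]
        exact tot_lt (fun G hG => (rmul10_wt G (hpull G hG)).1)
          ⟨F₀, hF₀, (rmul10_wt F₀ (hpull F₀ hF₀)).2.2.2 hF₀'⟩
      · rw [evs_flatMap10, map_mul, hL, zero_mul]
    let items := L.map fun F => (pre F ++ [true, true], inner (core F))
    have hval : ∀ l : List Frm, (∀ F ∈ l, ¬ IsPull F ∧ ¬ IsPt F) →
        groupVal .x (l.map fun F => (pre F ++ [true, true], inner (core F))) =
          evs l * (push true * push true) := by
      intro l hl
      induction l with
      | nil => simp [groupVal, evs]
      | cons F l ih =>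
        have h' := ih fun G hG => hl G (List.mem_cons_of_mem _ hG)
        simp only [groupVal, List.map_cons, List.sum_cons] at h' ⊢
        rw [h', evs_cons, add_mul]
        congr 1
        obtain ⟨hP, hT⟩ := hl F List.mem_cons_self
        rw [ev_eq F, mul_assoc (pushW (pre F)), pushW_append, mul_assoc]
        congr 1
        rcases hc : core F with _ | _ | ⟨a, G⟩ | ⟨G, a⟩ | ⟨v, G⟩
        · simp [inner, ev, pushW, hop_one]
        · exact absurd hc hT
        · exfalso
          clear hP hT h' hl
          induction F <;> simp_all [core]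
        · exact absurd ⟨G, a, hc⟩ hP
        · simp [inner, ev, pushW, hop_push11]
    have h11 : evs L * (push true * push true) = 0 := by
      have hv := hval L fun F hF => ⟨hpull F hF, hpt F hF⟩
      rw [← hv]
      refine good_group ih hpull _ _ (by simp [Function.comp_def]) (.inl ⟨F₀, hF₀, hF₀'⟩) ?_
      rw [hv, map_mul, hL, zero_mul]
    calc evs L = evs L * push false * pop false + evs L * push true * 1 * pop true := by
          rw [mul_one, mul_assoc, mul_assoc, ← mul_add, sum_push_pop, mul_one]
      _ = evs L * push false * pop false + evs L * (push true * push false) * pop false * pop true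
          + evs L * (push true * push true) * pop true * pop true := by
          rw [← sum_push_pop]; simp [mul_add, add_mul, mul_assoc, add_assoc]
      _ = 0 := by rw [h0, h10, h11]; simp
  · let items := L.map fun F => (pre F, inner (core F))
    have hv : groupVal .y items = evs L := by
      simp only [groupVal, items, evs, List.map_map]
      refine congrArg _ (List.map_congr_left fun F hF => ?_)
      rw [ev_eq F, Function.comp_apply]
      congr 1
      rcases hc : core F with _ | _ | ⟨a, G⟩ | ⟨G, a⟩ | ⟨v, G⟩
      · simp [inner, ev, hop_one]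
      · exact absurd hc (hpt F hF)
      · exfalso
        clear hF
        induction F <;> simp_all [core]
      · exact absurd ⟨G, a, hc⟩ (hpull F hF)
      · have hvy : v = .y := by
          cases v <;> first | rfl | exact absurd ⟨F, hF, _, G, hc, rfl⟩ hxz
        simp [inner, ev, hvy]
    rw [← hv]
    exact good_group ih hpull _ _ (by simp [items, Function.comp_def]) (.inr hnode) (hv ▸ hL)

lemma core_cases (F : Frm) : IsPull F ∨ IsPt F ∨ IsNode F ∨ core F = .one := by
  induction F with
  | one => simp [core]
  | pt => simp [IsPt, core]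
  | push a F ih => simpa [IsPull, IsPt, IsNode, core] using ih
  | pull F a => exact .inl ⟨F, a, rfl⟩
  | node v F => exact .inr (.inr (.inl ⟨v, F, rfl⟩))

theorem good (L : List Frm) : Good L := by
  induction L using (InvImage.wf meas wellFounded_lt).induction with
  | _ L ih =>
    by_cases hpull : ∃ F ∈ L, IsPull F
    · exact good_of_pull ih hpull
    push Not at hpull
    by_cases hnode : ∃ F ∈ L, IsNode F
    · by_cases hpt : ∃ F ∈ L, IsPt F
      · exact good_of_pt_node ih hpt hnode
      · push Not at hpt
        exact good_of_heads ih hpull hpt hnode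
    · push Not at hnode
      refine good_of_base fun F hF => ?_
      rcases core_cases F with h | h | h | h
      · exact absurd h (hpull F hF)
      · exact .inr h
      · exact absurd h (hnode F hF)
      · exact .inl h

theorem rep_injective : Function.Injective rep := by
  refine (injective_iff_map_eq_zero rep).2 fun b hb => ?_
  obtain ⟨L, rfl⟩ := spanned b
  exact good L hb

/-- The functional at a number. -/
noncomputable def row (n : ℕ) : Alg :=
  if n = 0 then pt else row (n / 2) * pop (lead n)
termination_by n
decreasing_by omega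

lemma rep_row_single (n m : ℕ) :
    rep (row n) (Finsupp.single m 1) = if m = n then Finsupp.single 0 1 else 0 := by
  induction n using Nat.strong_induction_on generalizing m with
  | _ n ih =>
    rw [row]
    split
    case isTrue h => simp [h, ptOp, ofBasis_single]
    case isFalse h =>
      rw [map_mul, Module.End.mul_apply, rep_pop, popOp, ofBasis_single]
      by_cases hl : lead m = lead n
      · rw [if_pos hl, ih (n / 2) (by omega)]
        have e : m / 2 = n / 2 ↔ m = n := by
          refine ⟨fun e => ?_, fun e => e ▸ rfl⟩
          rw [← cons_lead m, hl, e, cons_lead]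
        simp [e]
      · rw [if_neg hl, map_zero, if_neg fun e : m = n => hl (by rw [e])]

theorem pt_ne_zero : pt ≠ 0 := fun h => by
  have := congrArg (fun b => rep b (Finsupp.single 0 1)) h
  simp [ptOp, ofBasis_single] at this

theorem pt_corner (b : Alg) : pt * b * pt = 0 ∨ pt * b * pt = pt := by
  have key : rep (pt * b * pt) = (rep b (Finsupp.single 0 1)) 0 • rep pt := by
    refine op_ext fun n => ?_
    simp only [map_mul, rep_pt, Module.End.mul_apply, LinearMap.smul_apply, ptOp, ofBasis_single]
    by_cases hn : n = 0
    · subst hn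
      rw [if_pos rfl]
      generalize rep b (Finsupp.single 0 1) = w
      induction w using Finsupp.induction_linear with
      | zero => simp
      | add u v hu hv => rw [map_add, hu, hv, Finsupp.add_apply, add_smul]
      | single m c =>
        rw [show Finsupp.single m c = c • Finsupp.single m (1 : ZMod 2) by simp, map_smul,
          ofBasis_single]
        by_cases hm : m = 0 <;> simp [hm]
    · simp [hn]
  have hc : ∀ c : ZMod 2, c = 0 ∨ c = 1 := by decide
  rcases hc ((rep b (Finsupp.single 0 1)) 0) with h | h <;> rw [h] at key
  · exact .inl (rep_injective (by simpa using key))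
  · exact .inr (rep_injective (by simpa using key))

theorem pt_sep (b : Alg) (hb : b ≠ 0) : ∃ r s, pt * r * b * s * pt ≠ 0 := by
  obtain ⟨m, hm⟩ : ∃ m, rep b (Finsupp.single m 1) ≠ 0 := by
    by_contra hc
    push Not at hc
    exact hb (rep_injective (by rw [map_zero]; exact op_ext fun n => by simpa using hc n))
  obtain ⟨n, hn⟩ := Finsupp.ne_iff.1 hm
  refine ⟨row n, col m, fun h => hn ?_⟩
  have hpt : ptOp (Finsupp.single 0 1) = Finsupp.single 0 1 := by simp [ptOp, ofBasis_single]
  have h2 := congrArg (fun c => (rep c (Finsupp.single 0 1)) 0) h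
  simp only [map_mul, map_zero, rep_pt, Module.End.mul_apply, hpt, rep_col_single,
    LinearMap.zero_apply, Finsupp.zero_apply] at h2
  generalize rep b (Finsupp.single m 1) = w at h2 ⊢
  rw [Finsupp.zero_apply, ← h2]
  clear h2
  induction w using Finsupp.induction_linear with
  | zero => simp
  | add u v hu hv => simp only [map_add, Finsupp.add_apply, hu, hv]
  | single k c =>
    rw [show Finsupp.single k c = c • Finsupp.single k (1 : ZMod 2) by simp, map_smul,
      rep_row_single]
    by_cases hk : k = n
    · subst hk
      simp only [if_pos, map_smul, hpt]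
      simp
    · simp [hk]

end Vale.Agent.P193.Bh.Alg.B
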