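import Vale.Agent.P193.Bh.Alg.B.Endo

/-!
# P193: forms spanning the swindle algebra

A form is built from `1` and the point by pushing on the left, popping on the right and the three
block maps. Sums of forms are closed under products, hence are everything.
-/

namespace Vale.Agent.P193.Bh.Alg.B

/-- Forms. -/
inductive Frm
  | one
  | pt
  | push (a : Bool) (F : Frm)
  | pull (F : Frm) (a : Bool)
  | node (v : Hd) (F : Frm)
  deriving DecidableEq

/-- The value of a form. -/
noncomputable def ev : Frm → Alg
  | .one => 1
  | .pt => B.pt
  | .push a F => B.push a * ev F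
  | .pull F a => ev F * pop a
  | .node v F => hop v (ev F)

/-- The sum of a list of forms. -/
noncomputable def evs (L : List Frm) : Alg := (L.map ev).sum

lemma evs_cons (F : Frm) (L : List Frm) : evs (F :: L) = ev F + evs L := by simp [evs]

lemma evs_append (L M : List Frm) : evs (L ++ M) = evs L + evs M := by simp [evs]

/-- Being a sum of forms. -/
def Spanned (b : Alg) : Prop := ∃ L, evs L = b

lemma Spanned.of_ev (F : Frm) : Spanned (ev F) := ⟨[F], by simp [evs]⟩

lemma Spanned.zero : Spanned 0 := ⟨[], rfl⟩

lemma Spanned.add {b c : Alg} : Spanned b → Spanned c → Spanned (b + c) := by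
  rintro ⟨L, rfl⟩ ⟨M, rfl⟩
  exact ⟨L ++ M, evs_append L M⟩

lemma Spanned.map (f : Alg →+ Alg) (hf : ∀ F, Spanned (f (ev F))) {b : Alg} (h : Spanned b) :
    Spanned (f b) := by
  obtain ⟨L, rfl⟩ := h
  induction L with
  | nil => simpa [evs] using Spanned.zero
  | cons F L ih => rw [evs_cons, map_add]; exact (hf F).add ih

lemma Spanned.push_mul (a : Bool) {b : Alg} (h : Spanned b) : Spanned (push a * b) :=
  h.map (AddMonoidHom.mulLeft (push a)) fun F => .of_ev (.push a F)

lemma Spanned.mul_pop {b : Alg} (h : Spanned b) (a : Bool) : Spanned (b * pop a) :=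
  h.map (AddMonoidHom.mulRight (pop a)) fun F => .of_ev (.pull F a)

lemma Spanned.hop {b : Alg} (h : Spanned b) (v : Hd) : Spanned (B.hop v b) :=
  h.map ⟨⟨B.hop v, hop_zero v⟩, hop_add v⟩ fun F => .of_ev (.node v F)

lemma Spanned.hops {b : Alg} (h : Spanned b) (l : List Hd) : Spanned (B.hops l b) := by
  induction l with
  | nil => exact h
  | cons v l ih => exact ih.hop v

lemma spanned_pop_mul (a : Bool) : ∀ F : Frm, Spanned (pop a * ev F)
  | .one => by simpa [ev] using Spanned.of_ev (.pull .one a)
  | .pt => by
    cases a
    · simpa [ev] using Spanned.of_ev .pt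
    · simpa [ev] using Spanned.zero
  | .push b F => by
    rw [ev, pop_push_assoc]
    split
    exacts [.of_ev F, .zero]
  | .pull F b => by
    rw [ev, ← mul_assoc]
    exact (spanned_pop_mul a F).mul_pop b
  | .node v F => by
    rw [ev, pop_hop]
    exact ((Spanned.of_ev F).hops _).mul_pop a

lemma spanned_pt_mul : ∀ F : Frm, Spanned (pt * ev F)
  | .one => by simpa [ev] using Spanned.of_ev .pt
  | .pt => by simpa [ev] using Spanned.of_ev .pt
  | .push b F => by
    rw [ev, ← mul_assoc, pt_push]
    cases b
    · simpa using spanned_pt_mul F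
    · simpa using Spanned.zero
  | .pull F b => by
    rw [ev, ← mul_assoc]
    exact (spanned_pt_mul F).mul_pop b
  | .node v F => by
    have hy : ∀ c, pt * hop .y c = pt * c * pop false := fun c => by
      conv_lhs => rw [← pt_pop, mul_assoc, pop_hop, ← mul_assoc]
      rfl
    have h : pt * hop v (ev F) = pt * hops (step false v) (ev F) * pop false := by
      conv_lhs => rw [← pt_pop, mul_assoc, pop_hop, ← mul_assoc]
    rw [ev, h]
    cases v
    · exact (spanned_pt_mul F).mul_pop false
    · exact (spanned_pt_mul F).mul_pop false
    · show Spanned (pt * hop .y (hop .y (ev F)) * pop false)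
      rw [hy, hy]
      exact (((spanned_pt_mul F).mul_pop false).mul_pop false).mul_pop false

/-- One for a head making new heads. -/
def isXZ : Hd → ℕ
  | .y => 0
  | _ => 1

/-- The number of heads making new heads. -/
def countXZ (l : List Hd) : ℕ := (l.map isXZ).sum

/-- Weight of the first head. -/
def firstXZ : List Hd → ℕ
  | [] => 0
  | v :: _ => isXZ v

/-- Rank of a pair of heads. -/
def pairRank : List Hd → List Hd → ℕ
  | v :: _, w :: _ => if v = w then 0 else if v = .y ∨ w = .y then 2 else 1
  | _, _ => 0

lemma spanned_hops_mul_hops {b c : Alg} (h1 : ∀ ρ, Spanned (hops ρ b * c))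
    (h2 : ∀ ρ, Spanned (b * hops ρ c)) : ∀ σ ω, Spanned (hops σ b * hops ω c)
  | [], ω => h2 ω
  | _ :: _, [] => h1 _
  | v :: l, w :: m =>
    if hvw : v = w then by
      subst hvw
      rw [hops_cons, hops_cons, ← hop_mul]
      exact (spanned_hops_mul_hops h1 h2 l m).hop v
    else by
      have key : hops (v :: l) b * hops (w :: m) c =
          push false * (hops (step false v ++ l) b * hops (step false w ++ m) c) * pop false +
          push true * (hops (step true v ++ l) b * hops (step true w ++ m) c) * pop true := by
        rw [hops_cons, hops_cons, hop_eq v, add_mul]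
        simp only [hops_append, mul_assoc, pop_hop]
      rw [key]
      exact (((spanned_hops_mul_hops h1 h2 (step false v ++ l) (step false w ++ m)).push_mul
          false).mul_pop false).add
        (((spanned_hops_mul_hops h1 h2 (step true v ++ l) (step true w ++ m)).push_mul
          true).mul_pop true)
termination_by σ ω =>
  (countXZ σ.tail + countXZ ω.tail + max (firstXZ σ) (firstXZ ω), σ.length + ω.length,
    pairRank σ ω)
decreasing_by
  all_goals simp only [Prod.lex_def, List.length_cons, List.length_append, List.tail_cons]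
  all_goals rcases l with - | ⟨p, l⟩ <;> rcases m with - | ⟨q, m⟩
  all_goals cases v <;> cases w
  all_goals first | contradiction | skip
  all_goals simp [step, countXZ, firstXZ, pairRank, isXZ]
  all_goals omega

lemma spanned_hops_mul {g : Alg} (hg : Spanned g) (hgm : ∀ F, Spanned (g * ev F)) :
    ∀ (F : Frm) (σ : List Hd), Spanned (hops σ g * ev F)
  | .one, σ => by simpa [ev] using hg.hops σ
  | .pt, σ => spanned_hops_mul_pt σ
  | .push a F, [] => hgm _
  | .push a F, v :: l => by
    rw [hops_cons, ev, hop_push_assoc, ← hops_append]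
    exact (spanned_hops_mul hg hgm F _).push_mul a
  | .pull F a, σ => by
    rw [ev, ← mul_assoc]
    exact (spanned_hops_mul hg hgm F σ).mul_pop a
  | .node w F, σ => by
    refine spanned_hops_mul_hops (spanned_hops_mul hg hgm F) (fun ρ => ?_) σ [w]
    exact ((Spanned.of_ev F).hops ρ).map (AddMonoidHom.mulLeft g) hgm
where
  spanned_hops_mul_pt : ∀ σ : List Hd, Spanned (hops σ g * pt)
  | [] => hgm .pt
  | v :: l => by
    rw [hops_cons, ← push_pt, hop_push_assoc, ← hops_append]
    exact (spanned_hops_mul_pt (step false v ++ l)).push_mul false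
  termination_by σ => (σ.map fun v => if v = Hd.z then 3 else 1).sum
  decreasing_by cases v <;> simp [step] <;> omega

lemma spanned_ev_mul : ∀ G F : Frm, Spanned (ev G * ev F)
  | .one, F => by simpa [ev] using Spanned.of_ev F
  | .pt, F => spanned_pt_mul F
  | .push a G, F => by
    rw [ev, mul_assoc]
    exact (spanned_ev_mul G F).push_mul a
  | .pull G a, F => by
    rw [ev, mul_assoc]
    exact (spanned_pop_mul a F).map (AddMonoidHom.mulLeft (ev G)) fun H => spanned_ev_mul G H
  | .node v G, F => spanned_hops_mul (Spanned.of_ev G) (spanned_ev_mul G) F [v]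

lemma Spanned.mul {b c : Alg} (hb : Spanned b) (hc : Spanned c) : Spanned (b * c) :=
  hb.map (AddMonoidHom.mulRight c) fun G => hc.map (AddMonoidHom.mulLeft (ev G)) (spanned_ev_mul G)

lemma spanned_gen (i : Fin 5) : Spanned (proj (gen i)) := by
  have hpush : ∀ a, Spanned (proj (pushF a)) := fun a => by
    simpa [ev, push] using Spanned.of_ev (.push a .one)
  have hpop : ∀ a, Spanned (proj (popF a)) := fun a => by
    simpa [ev, pop] using Spanned.of_ev (.pull .one a)
  fin_cases i
  · exact hpush false
  · exact hpush true
  · exact hpop false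
  · exact hpop true
  · exact Spanned.of_ev .pt

/-- Every element is a sum of forms. -/
theorem spanned (b : Alg) : Spanned b := by
  obtain ⟨r, rfl⟩ := proj_surjective b
  induction r using FreeAlgebra.induction with
  | grade0 k =>
    have hk : ∀ k : ZMod 2, k = 0 ∨ k = 1 := by decide
    rcases hk k with rfl | rfl
    · simpa using Spanned.zero
    · simpa [ev] using Spanned.of_ev .one
  | grade1 i =>
    induction i using Fin.addCases (m := 5) (n := 5) with
    | left i => exact spanned_gen i
    | right i =>
      have h : proj (FreeAlgebra.ι (ZMod 2) (Fin.natAdd 5 i)) = hop .y (proj (gen i)) := by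
        show _ = yMap _
        simp [yMap_proj, dF, gen, dgen, -Fin.natAdd_eq_addNat]
      rw [h]
      exact (spanned_gen i).hop .y
  | mul a b ha hb => rw [map_mul]; exact ha.mul hb
  | add a b ha hb => rw [map_add]; exact ha.add hb

end Vale.Agent.P193.Bh.Alg.B
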